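import Mathlib

/-!
# A bit-parallel checker for strong regularity of a graph given by a bit matrix

The graph on `{0, …, 415}` is given by a natural number `m`: bit `416 * u + v` of `m` says whether
`u ~ v`.  We define kernel-friendly loops (written with `Nat.rec`) that check symmetry,
irreflexivity and the strongly regular identity `A² = 80 I + 16 A + 20 J`, and prove them sound.
Nothing in this file mentions a concrete `m`.
-/

namespace Vale.Agent.H82.Srg

open Finset

set_option exponentiation.threshold 10000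

/-- Bit `i` of `m`, as a natural number. -/
def bit (m i : ℕ) : ℕ := 1 &&& (m >>> i)

theorem bit_le_one (m i : ℕ) : bit m i ≤ 1 := by
  unfold bit
  rw [Nat.one_and_eq_mod_two]
  omega

theorem bit_eq_toNat (m i : ℕ) : bit m i = (m.testBit i).toNat := by
  unfold bit Nat.testBit
  rw [Nat.one_and_eq_mod_two]
  rcases Nat.mod_two_eq_zero_or_one (m >>> i) with h | h <;> simp [h]

theorem testBit_iff (m i : ℕ) : m.testBit i = true ↔ bit m i = 1 := by
  rw [bit_eq_toNat]
  cases m.testBit i <;> simp

theorem testBit_false_iff (m i : ℕ) : m.testBit i = false ↔ bit m i = 0 := by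
  rw [bit_eq_toNat]
  cases m.testBit i <;> simp

/-- Bounded universal quantifier over a boolean predicate, as a `Nat.rec` loop. -/
noncomputable def allB (p : ℕ → Bool) (n : ℕ) : Bool :=
  @Nat.rec (fun _ => Bool) true (fun k ih => ih && p k) n

theorem allB_succ (p : ℕ → Bool) (n : ℕ) : allB p (n + 1) = (allB p n && p n) := rfl

theorem allB_spec (p : ℕ → Bool) (n : ℕ) (h : allB p n = true) : ∀ k, k < n → p k = true := by
  induction n with
  | zero => intro k hk; omega
  | succ n ih =>
    rw [allB_succ, Bool.and_eq_true] at h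
    intro k hk
    rcases Nat.lt_succ_iff_lt_or_eq.mp hk with hk | rfl
    · exact ih h.1 k hk
    · exact h.2

/-! ### Packing digits -/

theorem pack_lt (Z : ℕ) (f : ℕ → ℕ) (n : ℕ) (hf : ∀ w, w < n → f w < Z) :
    ∑ w ∈ range n, f w * Z ^ w < Z ^ n := by
  induction n with
  | zero => simp
  | succ n ih =>
    rw [Finset.sum_range_succ, pow_succ]
    have h1 := ih (fun w hw => hf w (by omega))
    have h2 : f n + 1 ≤ Z := hf n (by omega)
    have h3 : (f n + 1) * Z ^ n ≤ Z * Z ^ n := Nat.mul_le_mul_right _ h2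
    nlinarith

theorem pack_digit (Z : ℕ) (f : ℕ → ℕ) (n : ℕ) (hf : ∀ w, w < n → f w < Z) (k : ℕ) (hk : k < n) :
    (∑ w ∈ range n, f w * Z ^ w) / Z ^ k % Z = f k := by
  induction n with
  | zero => omega
  | succ n ih =>
    have hZ : 0 < Z := lt_of_le_of_lt (Nat.zero_le _) (hf n (by omega))
    have hlt := pack_lt Z f n (fun w hw => hf w (by omega))
    rw [Finset.sum_range_succ]
    rcases Nat.lt_succ_iff_lt_or_eq.mp hk with hk' | rfl
    · have hsplit : f n * Z ^ n = Z ^ k * (f n * Z ^ (n - k - 1) * Z) := by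
        have : Z ^ n = Z ^ k * Z ^ (n - k - 1) * Z := by
          rw [← pow_add, ← pow_succ]
          congr 1
          omega
        rw [this]; ring
      rw [hsplit, Nat.add_mul_div_left _ _ (pow_pos hZ k), Nat.add_mul_mod_self_right]
      exact ih (fun w hw => hf w (by omega)) hk'
    · rw [Nat.add_mul_div_right _ _ (pow_pos hZ k), Nat.div_eq_of_lt hlt, zero_add]
      exact Nat.mod_eq_of_lt (hf k (by omega))

theorem pack_inj (Z : ℕ) (f g : ℕ → ℕ) (n : ℕ) (hf : ∀ w, w < n → f w < Z)
    (hg : ∀ w, w < n → g w < Z)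
    (h : ∑ w ∈ range n, f w * Z ^ w = ∑ w ∈ range n, g w * Z ^ w) (k : ℕ) (hk : k < n) :
    f k = g k := by
  rw [← pack_digit Z f n hf k hk, ← pack_digit Z g n hg k hk, h]

/-! ### The loops -/

/-- Spread of the row `w` of the bit matrix `m` into lanes of 16 bits:
`∑ v < n, bit (416 w + v) * 65536 ^ v`. -/
noncomputable def rowSpread (m w n : ℕ) : ℕ :=
  @Nat.rec (fun _ => ℕ) 0 (fun v ih => ih + bit m (416 * w + v) * 65536 ^ v) n

theorem rowSpread_succ (m w n : ℕ) :
    rowSpread m w (n + 1) = rowSpread m w n + bit m (416 * w + n) * 65536 ^ n := rfl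

theorem rowSpread_eq (m w n : ℕ) :
    rowSpread m w n = ∑ v ∈ range n, bit m (416 * w + v) * 65536 ^ v := by
  induction n with
  | zero => rfl
  | succ n ih => rw [rowSpread_succ, ih, Finset.sum_range_succ]

/-- All the row spreads, packed into one number with lanes of `6656 = 16 * 416` bits. -/
noncomputable def spAll (m n : ℕ) : ℕ :=
  @Nat.rec (fun _ => ℕ) 0 (fun w ih => ih + rowSpread m w 416 <<< (6656 * w)) n

theorem spAll_succ (m n : ℕ) :
    spAll m (n + 1) = spAll m n + rowSpread m n 416 <<< (6656 * n) := rfl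

theorem spAll_eq (m n : ℕ) :
    spAll m n = ∑ w ∈ range n, rowSpread m w 416 * (2 ^ 6656) ^ w := by
  induction n with
  | zero => rfl
  | succ n ih => rw [spAll_succ, ih, Finset.sum_range_succ, Nat.shiftLeft_eq, pow_mul]

/-- Extraction of lane `w` of a packed number. -/
def rowOf (sp w : ℕ) : ℕ := (sp >>> (6656 * w)) &&& (2 ^ 6656 - 1)

theorem rowSpread_lt (m w : ℕ) : rowSpread m w 416 < 2 ^ 6656 := by
  rw [rowSpread_eq]
  have h := pack_lt 65536 (fun v => bit m (416 * w + v)) 416
    (fun v _ => lt_of_le_of_lt (bit_le_one m _) (by norm_num))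
  have e : (65536 : ℕ) ^ 416 = 2 ^ 6656 := by
    rw [show (65536 : ℕ) = 2 ^ 16 by norm_num, ← pow_mul]
  rw [e] at h
  exact h

theorem rowOf_spAll (m w : ℕ) (hw : w < 416) : rowOf (spAll m 416) w = rowSpread m w 416 := by
  unfold rowOf
  rw [Nat.and_two_pow_sub_one_eq_mod, Nat.shiftRight_eq_div_pow, pow_mul, spAll_eq]
  exact pack_digit (2 ^ 6656) (fun w => rowSpread m w 416) 416 (fun w _ => rowSpread_lt m w) w hw

/-- `∑ w < n, bit (416 u + w) * rowOf sp w`, skipping the extraction when the bit is zero. -/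
noncomputable def sumS (m sp u n : ℕ) : ℕ :=
  @Nat.rec (fun _ => ℕ) 0
    (fun w ih => @Nat.rec (fun _ => ℕ) ih (fun _ _ => ih + rowOf sp w) (bit m (416 * u + w))) n

theorem sumS_succ (m sp u n : ℕ) :
    sumS m sp u (n + 1) = sumS m sp u n + bit m (416 * u + n) * rowOf sp n := by
  have h : sumS m sp u (n + 1) =
      @Nat.rec (fun _ => ℕ) (sumS m sp u n) (fun _ _ => sumS m sp u n + rowOf sp n)
        (bit m (416 * u + n)) := rfl
  rw [h]
  have hb := bit_le_one m (416 * u + n)
  generalize bit m (416 * u + n) = b at hb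
  interval_cases b <;> simp

theorem sumS_eq (m sp u n : ℕ) :
    sumS m sp u n = ∑ w ∈ range n, bit m (416 * u + w) * rowOf sp w := by
  induction n with
  | zero => rfl
  | succ n ih => rw [sumS_succ, ih, Finset.sum_range_succ]

/-- The check of the strongly regular identity for the row `u`. -/
noncomputable def checkU (m sp u : ℕ) : Bool :=
  Nat.beq (sumS m sp u 416) (80 * 65536 ^ u + 16 * rowOf sp u + 20 * ((2 ^ 6656 - 1) / 65535))

/-- Evaluate `x` to a literal (the recursor on `x + 1` forces it), then continue with `k x`. -/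
noncomputable def forceThen (x : ℕ) (k : ℕ → Bool) : Bool :=
  @Nat.rec (fun _ => Bool) true (fun y _ => k y) (x + 1)

theorem forceThen_eq (x : ℕ) (k : ℕ → Bool) : forceThen x k = k x := rfl

/-- The full check of the strongly regular identity: the packed row spreads are computed once
and forced to a literal. -/
noncomputable def checkAll (m : ℕ) : Bool :=
  forceThen (spAll m 416) (fun sp => allB (checkU m sp) 416)

theorem checkAll_eq (m : ℕ) : checkAll m = allB (checkU m (spAll m 416)) 416 := by
  unfold checkAll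
  exact forceThen_eq (spAll m 416) (fun sp => allB (checkU m sp) 416)

theorem ones_eq : ∑ v ∈ range 416, (65536 : ℕ) ^ v = (2 ^ 6656 - 1) / 65535 := by
  rw [Nat.geomSum_eq (by norm_num) 416]
  have e : (65536 : ℕ) ^ 416 = 2 ^ 6656 := by
    rw [show (65536 : ℕ) = 2 ^ 16 by norm_num, ← pow_mul]
  rw [e]

/-- Soundness of the strongly regular check. -/
theorem checkAll_spec (m : ℕ) (h : checkAll m = true) (u v : ℕ) (hu : u < 416) (hv : v < 416) :
    ∑ w ∈ range 416, bit m (416 * u + w) * bit m (416 * w + v)
      = (if u = v then 80 else 0) + 16 * bit m (416 * u + v) + 20 := by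
  rw [checkAll_eq] at h
  have hU := allB_spec _ _ h u hu
  unfold checkU at hU
  replace hU := Nat.eq_of_beq_eq_true hU
  rw [sumS_eq, rowOf_spAll m u hu] at hU
  have hL : ∑ w ∈ range 416, bit m (416 * u + w) * rowOf (spAll m 416) w
      = ∑ v ∈ range 416, (∑ w ∈ range 416, bit m (416 * u + w) * bit m (416 * w + v))
          * 65536 ^ v := by
    rw [Finset.sum_congr rfl (fun w hw => by
      rw [rowOf_spAll m w (Finset.mem_range.mp hw), rowSpread_eq, Finset.mul_sum])]
    rw [Finset.sum_comm]
    refine Finset.sum_congr rfl (fun v _ => ?_)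
    rw [Finset.sum_mul]
    refine Finset.sum_congr rfl (fun w _ => ?_)
    ring
  have hR : 80 * 65536 ^ u + 16 * rowSpread m u 416 + 20 * ((2 ^ 6656 - 1) / 65535)
      = ∑ v ∈ range 416, ((if u = v then 80 else 0) + 16 * bit m (416 * u + v) + 20)
          * 65536 ^ v := by
    have key : ∀ v ∈ range 416,
        ((if u = v then 80 else 0) + 16 * bit m (416 * u + v) + 20) * 65536 ^ v
          = (if u = v then 80 * 65536 ^ v else 0) + 16 * (bit m (416 * u + v) * 65536 ^ v)
            + 20 * 65536 ^ v := by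
      intro v _
      split_ifs <;> ring
    rw [Finset.sum_congr rfl key, Finset.sum_add_distrib, Finset.sum_add_distrib,
      Finset.sum_ite_eq, if_pos (Finset.mem_range.mpr hu), ← Finset.mul_sum, ← Finset.mul_sum,
      ← ones_eq, rowSpread_eq]
  rw [hL, hR] at hU
  refine pack_inj 65536 _ _ 416 (fun v _ => ?_) (fun v _ => ?_) hU v hv
  · calc ∑ w ∈ range 416, bit m (416 * u + w) * bit m (416 * w + v)
        ≤ ∑ _w ∈ range 416, 1 := Finset.sum_le_sum (fun w _ => by
          have h1 := bit_le_one m (416 * u + w)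
          have h2 := bit_le_one m (416 * w + v)
          calc bit m (416 * u + w) * bit m (416 * w + v) ≤ 1 * 1 := Nat.mul_le_mul h1 h2
            _ = 1 := by norm_num)
      _ = 416 := by simp
      _ < 65536 := by norm_num
  · have h1 := bit_le_one m (416 * u + v)
    split_ifs <;> omega

/-- Symmetry check. -/
noncomputable def symAll (m : ℕ) : Bool :=
  allB (fun u => allB (fun v => Nat.beq (bit m (416 * u + v)) (bit m (416 * v + u))) 416) 416

theorem symAll_spec (m : ℕ) (h : symAll m = true) (u v : ℕ) (hu : u < 416) (hv : v < 416) :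
    bit m (416 * u + v) = bit m (416 * v + u) := by
  have h1 := allB_spec _ _ h u hu
  have h2 := allB_spec _ _ h1 v hv
  exact Nat.eq_of_beq_eq_true h2

/-- Irreflexivity check. -/
noncomputable def irreflAll (m : ℕ) : Bool :=
  allB (fun u => Nat.beq (bit m (416 * u + u)) 0) 416

theorem irreflAll_spec (m : ℕ) (h : irreflAll m = true) (u : ℕ) (hu : u < 416) :
    bit m (416 * u + u) = 0 :=
  Nat.eq_of_beq_eq_true (allB_spec _ _ h u hu)

end Vale.Agent.H82.Srg
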