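import Vale.Agent.H14.Borsuk63.Data
import Vale.Agent.H82.Borsuk63.SrgGeneric
import Vale.Agent.H53.B63.SymCheck

/-!
# Kernel checks for the graph of `Vale.Agent.H14.Borsuk63.Data`

The three boolean checks of `SrgGeneric` evaluate to `true` on the number `big`.  The symmetry
check and the strongly regular identity are evaluated through the memory-light twins of
`Vale.Agent.H53.B63.Light` (each row of the bit matrix is extracted once), which are proved equal
to the checks of `SrgGeneric`.
-/

namespace Vale.Agent.H82.Srg

open Vale.Agent.H14.Borsuk63

theorem irreflAll_big : irreflAll big = true := by decide +kernel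

theorem symAll_big : symAll big = true := Vale.Agent.H53.B63.symAll_big

theorem checkAllL_big : Vale.Agent.H53.B63.checkAllL big = true := by decide +kernel

theorem checkAll_big : checkAll big = true := by
  rw [← Vale.Agent.H53.B63.checkAllL_eq]
  exact checkAllL_big

end Vale.Agent.H82.Srg
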