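import Vale.Agent.H14.Borsuk63.Data
import Vale.Agent.H82.Borsuk63.SrgCheck

/-!
# The graph of `Vale.Agent.H14.Borsuk63.Data` is strongly regular `(416, 100, 36, 20)`

`adj_symm`, `adj_irrefl` and `adj_srg` (the identity `A² = 80 I + 16 A + 20 J`, entrywise),
obtained from the kernel-evaluated bit-parallel checks of `SrgCheck`.
-/

namespace Vale.Agent.H82

open Vale.Agent.H14.Borsuk63

theorem Srg.testBit_eq_of_bit_eq (m i j : ℕ) (h : Srg.bit m i = Srg.bit m j) :
    m.testBit i = m.testBit j := by
  rw [Srg.bit_eq_toNat, Srg.bit_eq_toNat] at h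
  revert h
  cases m.testBit i <;> cases m.testBit j <;> simp

theorem Srg.card_eq_sum (m u v : ℕ) :
    ((Finset.range 416).filter
        (fun w => m.testBit (416 * u + w) = true ∧ m.testBit (416 * w + v) = true)).card
      = ∑ w ∈ Finset.range 416, Srg.bit m (416 * u + w) * Srg.bit m (416 * w + v) := by
  rw [Finset.card_filter]
  refine Finset.sum_congr rfl (fun w _ => ?_)
  rw [Srg.bit_eq_toNat, Srg.bit_eq_toNat]
  cases m.testBit (416 * u + w) <;> cases m.testBit (416 * w + v) <;> simp

theorem Srg.ite_eq_bit (m i : ℕ) :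
    (if m.testBit i = true then 16 else 0) = 16 * Srg.bit m i := by
  rw [Srg.bit_eq_toNat]
  cases m.testBit i <;> simp

theorem adj_symm : ∀ u v, u < 416 → v < 416 → adj u v = adj v u := by
  intro u v hu hv
  exact Srg.testBit_eq_of_bit_eq big _ _ (Srg.symAll_spec big Srg.symAll_big u v hu hv)

theorem adj_irrefl : ∀ u, u < 416 → adj u u = false := by
  intro u hu
  exact (Srg.testBit_false_iff big _).mpr (Srg.irreflAll_spec big Srg.irreflAll_big u hu)

theorem adj_srg : ∀ u v, u < 416 → v < 416 →
    ((Finset.range 416).filter (fun w => adj u w = true ∧ adj w v = true)).card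
      = (if u = v then 80 else 0) + (if adj u v = true then 16 else 0) + 20 := by
  intro u v hu hv
  have h1 := Srg.card_eq_sum big u v
  have h2 := Srg.checkAll_spec big Srg.checkAll_big u v hu hv
  have h3 := Srg.ite_eq_bit big (416 * u + v)
  unfold adj
  rw [h1, h2, h3]

end Vale.Agent.H82
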